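import Vale.Agent.P234I97.Main

open Bundle Vale.Agent.P234 Vale.Agent.P234I Vale.Agent.P210I
open Vale.Agent.P234Z57 (Starts IsGeodesic)
open scoped Manifold ContDiff Topology

namespace Vale.Agent.Results.P234.AGeodesicExp

/-- Villani's conjecture, with the exponential map of the Levi-Civita connection. -/
theorem result {E : Type} [NormedAddCommGroup E] [NormedSpace ℝ E] [FiniteDimensional ℝ E]
    {M : Type} [MetricSpace M] [ChartedSpace E M] [IsManifold 𝓘(ℝ, E) ∞ M]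
    [RiemannianBundle fun x : M => Tan E x]
    [IsContMDiffRiemannianBundle 𝓘(ℝ, E) ∞ E fun x : M => Tan E x]
    [IsRiemannianManifold 𝓘(ℝ, E) M] [CompactSpace M] [ConnectedSpace M] :
    (∃ cov : Conn E M, IsLeviCivita cov) ∧ ∀ cov : Conn E M, IsLeviCivita cov →
      (∀ cov' : Conn E M, IsLeviCivita cov' → Agree cov' cov) ∧
      (∀ c : ℝ → M, SmoothCurve E c → ∀ t, ∃! w, IsAcc cov c t w) ∧
      (∀ c : ℝ → M, Geod cov c ↔ IsGeodesic E c) ∧
      (∀ (x : M) (v : Tan E x), ∃! c : ℝ → M, Geod cov c ∧ Starts c x v) ∧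
      (∃! e, IsExpOf cov e) ∧ ∀ e, IsExpOf cov e →
        (∀ (x : M) (v : Tan E x) (c : ℝ → M), Geod cov c → Starts c x v →
          ∀ t : ℝ, e x (t • v) = c t) ∧
        (∀ x : M, IsOpen (injDomain (E := E) e x)) ∧
        (∀ x : M, ∀ v ∈ injDomain (E := E) e x, ∀ᶠ p in 𝓝 (x, e x v),
          ContMDiffAt (𝓘(ℝ, E).prod 𝓘(ℝ, E)) 𝓘(ℝ, ℝ) ∞ (fun p : M × M => cost p.1 p.2) p) ∧
        (WeakMTW (E := E) e → ∀ x : M, Convex ℝ (injDomain (E := E) e x)) :=
  ⟨P234I.main.1, fun cov h => ⟨(P234I.main.2 cov h).1, (P234I.main.2 cov h).2.1,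
    fun _ => geod_iff h, (P234I.main.2 cov h).2.2⟩⟩

end Vale.Agent.Results.P234.AGeodesicExp
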